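import Vale.Agent.Lib.P096.helper95.Main

namespace Vale.Agent.Results.P096.UniformDelta

open Vale.Agent.Lib.P096.H95

universe v

/-- The strong form of the Kadison-Kastler conjecture (one `δ` for every Hilbert space and all
von Neumann algebras `M`, `N` on it) is equivalent to the weaker form in which `δ` is allowed
to depend on the Hilbert space `H` and on the algebra `M` (the unitary is still required to be
within `ε` of the identity).  `kkDist M N` is the Hausdorff distance of the closed unit balls
and `CloseConj M N ε` says that `N = u M u*` for a unitary `u` with `‖u - 1‖ < ε`. -/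
theorem result :
    (∀ ε : ℝ, 0 < ε → ∃ δ : ℝ, 0 < δ ∧
      ∀ (H : Type v) [NormedAddCommGroup H] [InnerProductSpace ℂ H] [CompleteSpace H]
        (M N : VonNeumannAlgebra H), kkDist M N < δ → CloseConj M N ε) ↔
    (∀ (H : Type v) [NormedAddCommGroup H] [InnerProductSpace ℂ H] [CompleteSpace H]
        (M : VonNeumannAlgebra H) (ε : ℝ), 0 < ε → ∃ δ : ℝ, 0 < δ ∧
          ∀ N : VonNeumannAlgebra H, kkDist M N < δ → CloseConj M N ε) :=
  main_equiv

end Vale.Agent.Results.P096.UniformDelta
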